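import Vale.Agent.P235.H134.Grid.Defs

/-! Graphs drawn with one crossing (helper218). -/

namespace Vale.Agent.P235.XC.H218

/-- `H` is drawn in the closed unit square, the vertices as distinct points `p v`, every edge `e` as
an arc `γ e` joining the two ends of `e`, an arc contains no vertex except its ends, two different
arcs meet only in vertices; `a` is on the left side, `b` on the right side, `c` on the lower side,
`d` on the upper side. -/
def SqDrawn {W : Type} (H : SimpleGraph W) (a b c d : W) : Prop :=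
  ∃ (p : W → ℝ × ℝ) (γ : Sym2 W → ℝ → ℝ × ℝ), Function.Injective p ∧
    (∀ v, p v ∈ Set.Icc (0 : ℝ) 1 ×ˢ Set.Icc (0 : ℝ) 1) ∧
    (∀ e ∈ H.edgeSet, ContinuousOn (γ e) (Set.Icc 0 1) ∧ Set.InjOn (γ e) (Set.Icc 0 1)) ∧
    (∀ e ∈ H.edgeSet, γ e '' Set.Icc 0 1 ⊆ Set.Icc (0 : ℝ) 1 ×ˢ Set.Icc (0 : ℝ) 1) ∧
    (∀ a b, H.Adj a b → ({γ s(a, b) 0, γ s(a, b) 1} : Set (ℝ × ℝ)) = {p a, p b}) ∧
    (∀ e ∈ H.edgeSet, ∀ a, p a ∈ γ e '' Set.Icc 0 1 → a ∈ e) ∧
    (∀ e ∈ H.edgeSet, ∀ e' ∈ H.edgeSet, e ≠ e' →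
      γ e '' Set.Icc 0 1 ∩ γ e' '' Set.Icc 0 1 ⊆ Set.range p) ∧
    (p a).1 = 0 ∧ (p b).1 = 1 ∧ (p c).2 = 0 ∧ (p d).2 = 1

/-- `H` is drawn with (at most) one crossing, that of the edges `ab` and `cd`, which is sent to
infinity: the other edges are drawn in a square with `a`, `b` on two opposite sides and `c`, `d` on
the two other sides. -/
def OneCross {W : Type} (H : SimpleGraph W) : Prop :=
  ∃ (H₀ : SimpleGraph W) (a b c d : W), SqDrawn H₀ a b c d ∧
    ∀ u v, H.Adj u v → H₀.Adj u v ∨ s(u, v) = s(a, b) ∨ s(u, v) = s(c, d)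

end Vale.Agent.P235.XC.H218
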