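import Vale.Agent.P235.H205.Grid.PlanarTop
import Vale.Agent.P235.H62.PlanarComb
import Vale.Agent.P235.H218.K5.Face
import Vale.Agent.P235.H56.MinTrans
import Vale.Agent.P235.XC.Defs
import Vale.Agent.P235.XC.H218.OneCrossDef

/-!
# Graphs drawn with one crossing are minors of grids with a cross (helper218)

`H` without two edges `ab`, `cd` is drawn in the closed unit square, `a`, `b` on the left and right
side, `c`, `d` on the lower and upper side (the crossing of `ab` and `cd` is sent to infinity).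
-/

namespace Vale.Agent.P235.XC.H218

open SimpleGraph Vale.Agent.P235.H134 Filter Topology
open Vale.Agent.P235.H205 Vale.Agent.P235.H218K5

/-- `planarComb` with branch sets which contain the given sets -/
theorem comb {V W : Type} (G : SimpleGraph V) (H : SimpleGraph W) (X : W → Set V)
    (K : Sym2 W → Set V) (hX : ∀ a, (G.induce (X a)).Connected)
    (hXd : ∀ a b, a ≠ b → Disjoint (X a) (X b))
    (hK : ∀ e ∈ H.edgeSet, (G.induce (K e)).Connected)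
    (hKd : ∀ e ∈ H.edgeSet, ∀ e' ∈ H.edgeSet, e ≠ e' → Disjoint (K e) (K e'))
    (hXK : ∀ e ∈ H.edgeSet, ∀ a, a ∈ e ↔ (X a ∩ K e).Nonempty) :
    ∃ μ : W → Set V, (∀ a, (G.induce (μ a)).Connected) ∧ (∀ a b, a ≠ b → Disjoint (μ a) (μ b)) ∧
      (∀ a b, H.Adj a b → ∃ x ∈ μ a, ∃ y ∈ μ b, G.Adj x y) ∧ ∀ a, X a ⊆ μ a := by
  classical
  have hends : ∀ e : Sym2 W, e ∈ H.edgeSet → e.out.1 ≠ e.out.2 ∧ s(e.out.1, e.out.2) = e := by
    intro e he
    have h1 : s(e.out.1, e.out.2) = e := by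
      have := Quot.out_eq e
      exact this
    refine ⟨?_, h1⟩
    have h2 : H.Adj e.out.1 e.out.2 := by
      rw [← mem_edgeSet, h1]; exact he
    exact h2.ne
  have hP : ∀ e : Sym2 W, ∃ P : Set V, e ∈ H.edgeSet → (P ⊆ K e ∧ (P ∩ X e.out.1).Nonempty ∧
      Disjoint P (X e.out.2) ∧ (G.induce P).Connected ∧
      ∃ z ∈ P, ∃ y' ∈ X e.out.2, G.Adj z y') := by
    intro e
    by_cases he : e ∈ H.edgeSet
    · obtain ⟨h1, h2⟩ := hends e he
      have h3 : (X e.out.1 ∩ K e).Nonempty := (hXK e he _).1 (by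
        have : e.out.1 ∈ s(e.out.1, e.out.2) := Sym2.mem_mk_left _ _
        rwa [h2] at this)
      have h4 : (X e.out.2 ∩ K e).Nonempty := (hXK e he _).1 (by
        have : e.out.2 ∈ s(e.out.1, e.out.2) := Sym2.mem_mk_right _ _
        rwa [h2] at this)
      obtain ⟨P, hP⟩ := H62.exists_piece (hK e he) h3 h4 (hXd _ _ h1)
      exact ⟨P, fun _ => hP⟩
    · exact ⟨∅, fun h => absurd h he⟩
  choose P hP using hP
  set μ : W → Set V := fun a => X a ∪ {v | ∃ e ∈ H.edgeSet, e.out.1 = a ∧ v ∈ P e} with hμ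
  have hXP : ∀ a, ∀ e ∈ H.edgeSet, a ≠ e.out.1 → ∀ v, v ∈ X a → v ∈ P e → False := by
    intro a e he hne v hv hv'
    obtain ⟨h1, -, h3, -⟩ := hP e he
    have h4 : a ∈ e := (hXK e he a).2 ⟨v, hv, h1 hv'⟩
    rw [← (hends e he).2, Sym2.mem_iff] at h4
    rcases h4 with h4 | h4
    · exact hne h4
    · rw [h4] at hv
      exact Set.disjoint_left.1 h3 hv' hv
  refine ⟨μ, ?_, ?_, ?_, fun a => Set.subset_union_left⟩
  · intro a
    obtain ⟨⟨u, hu⟩⟩ := (hX a).nonempty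
    refine induce_connected_of_patches u (Or.inl hu) ?_
    rintro v (hv | ⟨e, he, rfl, hv⟩)
    · exact ⟨X a, Set.subset_union_left, hu, hv, (hX a).preconnected _ _⟩
    · obtain ⟨-, h2, -, h4, -⟩ := hP e he
      have hc := induce_union_connected (hX e.out.1).preconnected h4.preconnected
        (by rw [Set.inter_comm]; exact h2)
      refine ⟨X e.out.1 ∪ P e, ?_, Or.inl hu, Or.inr hv, hc.preconnected _ _⟩
      rintro x (hx | hx)
      · exact Or.inl hx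
      · exact Or.inr ⟨e, he, rfl, hx⟩
  · intro a b hab
    rw [Set.disjoint_left]
    rintro v (hv | ⟨e, he, rfl, hv⟩) (hv' | ⟨e', he', rfl, hv'⟩)
    · exact Set.disjoint_left.1 (hXd a b hab) hv hv'
    · exact hXP a e' he' hab v hv hv'
    · exact hXP b e he hab.symm v hv' hv
    · have hne : e ≠ e' := fun h => hab (by rw [h])
      exact Set.disjoint_left.1 (hKd e he e' he' hne) ((hP e he).1 hv) ((hP e' he').1 hv')
  · intro a b hab
    have he : s(a, b) ∈ H.edgeSet := hab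
    obtain ⟨-, h2⟩ := hends _ he
    obtain ⟨-, -, -, -, z, hz, y, hy, hzy⟩ := hP _ he
    have hz' : z ∈ μ (s(a, b) : Sym2 W).out.1 := Or.inr ⟨_, he, rfl, hz⟩
    have hy' : y ∈ μ (s(a, b) : Sym2 W).out.2 := Or.inl hy
    rw [Sym2.eq_iff] at h2
    rcases h2 with ⟨h3, h4⟩ | ⟨h3, h4⟩
    · rw [h3] at hz'; rw [h4] at hy'
      exact ⟨z, hz', y, hy', hzy⟩
    · rw [h3] at hz'; rw [h4] at hy'
      exact ⟨y, hy', z, hz', hzy.symm⟩

/-- the unit interval is covered -/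
theorem cov1 (n : ℕ) {x : ℝ} (h0 : 0 ≤ x) (h1 : x ≤ 1) :
    ∃ i : Fin (n + 1), 0 + (i : ℕ) * (1 / ((n : ℝ) + 1)) ≤ x ∧
      x ≤ 0 + ((i : ℕ) + 1) * (1 / ((n : ℝ) + 1)) := by
  have hn : (0 : ℝ) < (n : ℝ) + 1 := by positivity
  rcases lt_or_eq_of_le h1 with h | h
  · have h2 : 0 ≤ x * ((n : ℝ) + 1) := mul_nonneg h0 hn.le
    have hlt : x * ((n : ℝ) + 1) < ((n + 1 : ℕ) : ℝ) := by
      push_cast
      nlinarith
    refine ⟨⟨⌊x * ((n : ℝ) + 1)⌋₊, (Nat.floor_lt h2).2 hlt⟩, ?_, ?_⟩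
    · have := Nat.floor_le h2
      simp only
      rw [zero_add, mul_one_div, div_le_iff₀ hn]
      exact this
    · have := (Nat.lt_floor_add_one (x * ((n : ℝ) + 1))).le
      simp only
      rw [zero_add, mul_one_div, le_div_iff₀ hn]
      exact this
  · refine ⟨⟨n, Nat.lt_succ_self n⟩, ?_, ?_⟩
    · simp only
      rw [zero_add, mul_one_div, div_le_iff₀ hn, h]
      linarith
    · simp only
      rw [zero_add, mul_one_div, le_div_iff₀ hn, h]
      linarith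

/-- A drawing in the square gives a model in a grid, with the four sides. -/
theorem sq_model (W : Type) [Finite W] (H : SimpleGraph W) (a b c d : W)
    (hpl : SqDrawn H a b c d) :
    ∃ n : ℕ, 1 ≤ n ∧ ∃ μ : W → Set (Fin (n + 1) × Fin (n + 1)),
      (∀ v, ((grid (n + 1)).induce (μ v)).Connected) ∧ (∀ v w, v ≠ w → Disjoint (μ v) (μ w)) ∧
      (∀ v w, H.Adj v w → ∃ x ∈ μ v, ∃ y ∈ μ w, (grid (n + 1)).Adj x y) ∧
      (∃ x ∈ μ a, x.1.val = 0) ∧ (∃ x ∈ μ b, x.1.val = n) ∧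
      (∃ x ∈ μ c, x.2.val = 0) ∧ (∃ x ∈ μ d, x.2.val = n) := by
  obtain ⟨p, γ, hp, hpS, hγ, hγS, hend, hmem, hinter, ha, hb, hc, hd⟩ := hpl
  have : Finite (Sym2 W) := by
    have := Fintype.ofFinite W
    classical infer_instance
  -- choice of `δ`
  have hδ1 : ∀ᶠ δ in 𝓝[>] (0 : ℝ), ∀ a b, a ≠ b → 4 * δ < dist (p a) (p b) := by
    refine eventually_all.2 fun a => eventually_all.2 fun b => ?_
    by_cases hab : a = b
    · exact Eventually.of_forall fun _ h => absurd hab h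
    · exact (eventually_mul_lt _ 4 (dist_pos.2 (hp.ne hab))).mono fun _ h _ => h
  have hδ2 : ∀ᶠ δ in 𝓝[>] (0 : ℝ), ∀ e, e ∈ H.edgeSet → ∀ a, a ∉ e →
      ∀ y ∈ γ e '' Set.Icc 0 1, 2 * δ < dist (p a) y := by
    refine eventually_all.2 fun e => ?_
    by_cases he : e ∈ H.edgeSet
    swap
    · exact Eventually.of_forall fun _ h => absurd h he
    have h2 : ∀ᶠ δ in 𝓝[>] (0 : ℝ), ∀ a, a ∉ e → ∀ y ∈ γ e '' Set.Icc 0 1,
        2 * δ < dist (p a) y := by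
      refine eventually_all.2 fun a => ?_
      by_cases ha : a ∈ e
      · exact Eventually.of_forall fun _ h => absurd ha h
      have hcl : IsClosed (γ e '' Set.Icc 0 1) :=
        (isCompact_Icc.image_of_continuousOn (hγ e he).1).isClosed
      have hne : (γ e '' Set.Icc 0 1).Nonempty := ⟨γ e 0, 0, ⟨le_refl _, zero_le_one⟩, rfl⟩
      have hpos : 0 < Metric.infDist (p a) (γ e '' Set.Icc 0 1) :=
        (hcl.notMem_iff_infDist_pos hne).1 fun h => ha (hmem e he a h)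
      exact (eventually_mul_lt _ 2 hpos).mono fun δ h _ y hy =>
        lt_of_lt_of_le h (Metric.infDist_le_dist_of_mem hy)
    exact h2.mono fun _ h _ => h
  obtain ⟨δ, ⟨hδ1, hδ2⟩, hδ⟩ := ((hδ1.and hδ2).and (self_mem_nhdsWithin :
    Set.Ioi (0 : ℝ) ∈ 𝓝[>] (0 : ℝ))).exists
  replace hδ : 0 < δ := hδ
  choose K hKc hK using exists_inner hγ hend hmem hδ
  -- choice of `ε`
  have hε1 : ∀ᶠ ε in 𝓝[>] (0 : ℝ), ∀ e e', e ∈ H.edgeSet → e' ∈ H.edgeSet → e ≠ e' →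
      ∀ y ∈ K e, ∀ y' ∈ K e', ε < dist y y' := by
    refine eventually_all.2 fun e => eventually_all.2 fun e' => ?_
    by_cases he : e ∈ H.edgeSet ∧ e' ∈ H.edgeSet ∧ e ≠ e'
    swap
    · exact Eventually.of_forall fun _ h h' h'' => absurd ⟨h, h', h''⟩ he
    obtain ⟨he, he', hee⟩ := he
    have hd : Disjoint (K e) (K e') := by
      rw [Set.disjoint_left]
      intro y hy hy'
      obtain ⟨a, rfl⟩ := hinter e he e' he' hee ⟨(hK e he).2.2.1 hy, (hK e' he').2.2.1 hy'⟩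
      exact (hK e he).2.2.2.1 a hy
    obtain ⟨ρ, hρ, hρ'⟩ := Metric.exists_pos_forall_lt_edist (hKc e) (hKc e').isClosed hd
    have hρ0 : (0 : ℝ) < ρ := NNReal.coe_pos.2 hρ
    refine (eventually_mul_lt (ρ : ℝ) 1 hρ0).mono fun ε h _ _ _ y hy y' hy' => ?_
    rw [one_mul] at h
    refine h.trans ?_
    have h3 := hρ' y hy y' hy'
    rw [edist_nndist] at h3
    have h4 : ρ < nndist y y' := by exact_mod_cast h3
    exact_mod_cast h4
  have hε2 : ∀ᶠ ε in 𝓝[>] (0 : ℝ), 1 * ε < δ := eventually_mul_lt _ _ hδ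
  have htend : Tendsto (fun n : ℕ => 1 / ((n : ℝ) + 1)) atTop (𝓝[>] (0 : ℝ)) :=
    tendsto_nhdsWithin_iff.2 ⟨tendsto_one_div_add_atTop_nhds_zero_nat,
      Eventually.of_forall fun n => by
        have : (0 : ℝ) < (n : ℝ) + 1 := by positivity
        exact one_div_pos.2 this⟩
  obtain ⟨n, ⟨hε1, hε2⟩, hn1⟩ :=
    ((htend.eventually (hε1.and hε2)).and (eventually_ge_atTop 1)).exists
  have hn : (0 : ℝ) < (n : ℝ) + 1 := by positivity
  obtain ⟨ε, hεdef⟩ : ∃ ε : ℝ, ε = 1 / ((n : ℝ) + 1) := ⟨_, rfl⟩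
  rw [← hεdef] at hε1 hε2
  have hε : 0 < ε := hεdef ▸ one_div_pos.2 hn
  rw [one_mul] at hε2
  have hnε : ((n : ℝ) + 1) * ε = 1 := by rw [hεdef]; field_simp
  -- the box
  set Sq : Set (ℝ × ℝ) := Set.Icc (0 : ℝ) 1 ×ˢ Set.Icc (0 : ℝ) 1 with hSq
  have hcov : ∀ z ∈ Sq, ∃ i j : Fin (n + 1), InSq 0 ε z i j := by
    rintro z ⟨⟨h1, h2⟩, h3, h4⟩
    obtain ⟨i, hi⟩ := cov1 n h1 h2
    obtain ⟨j, hj⟩ := cov1 n h3 h4
    rw [← hεdef] at hi hj
    exact ⟨i, j, hi, hj⟩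
  have hpB : ∀ v, p v ∈ Metric.closedBall (p v) δ ∩ Sq := fun v =>
    ⟨Metric.mem_closedBall_self hδ.le, hpS v⟩
  obtain ⟨μ, m1, m2, m3, m4⟩ := comb (grid (n + 1)) H
    (fun v => cells (n + 1) 0 ε (Metric.closedBall (p v) δ ∩ Sq))
    (fun e => cells (n + 1) 0 ε (K e)) (by
      intro v
      exact cells_connected hε ((convex_closedBall _ _).inter
        ((convex_Icc _ _).prod (convex_Icc _ _))).isPreconnected ⟨p v, hpB v⟩
        fun z hz => hcov z hz.2) (by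
      intro a b hab
      rw [Set.disjoint_left]
      rintro q ⟨z, ⟨hz, -⟩, hzq⟩ ⟨w, ⟨hw, -⟩, hwq⟩
      have h1 := hδ1 a b hab
      have h2 := hzq.dist_le hwq
      rw [Metric.mem_closedBall] at hz hw
      have h3 := dist_triangle (p a) z (p b)
      have h4 := dist_triangle z w (p b)
      rw [_root_.dist_comm] at hz
      linarith) (by
      intro e he
      exact cells_connected hε (hK e he).1 (hK e he).2.1 fun z hz =>
        hcov z (hγS e he ((hK e he).2.2.1 hz))) (by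
      intro e he e' he' hee
      rw [Set.disjoint_left]
      rintro q ⟨z, hz, hzq⟩ ⟨w, hw, hwq⟩
      exact absurd (hzq.dist_le hwq) (not_le.2 (hε1 e e' he he' hee z hz w hw))) (by
      intro e he a
      constructor
      · intro ha
        obtain ⟨y, hy, hya⟩ := (hK e he).2.2.2.2 a ha
        have hyS := hγS e he ((hK e he).2.2.1 hy)
        obtain ⟨i, j, hij⟩ := hcov y hyS
        exact ⟨(i, j), ⟨y, ⟨hya, hyS⟩, hij⟩, y, hy, hij⟩
      · rintro ⟨q, ⟨z, ⟨hz, -⟩, hzq⟩, w, hw, hwq⟩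
        by_contra ha
        have h1 := hδ2 e he a ha w ((hK e he).2.2.1 hw)
        have h2 := hzq.dist_le hwq
        rw [Metric.mem_closedBall] at hz
        have h3 := dist_triangle (p a) z w
        rw [_root_.dist_comm] at hz
        linarith)
  refine ⟨n, hn1, μ, m1, m2, m3, ?_, ?_, ?_, ?_⟩
  · obtain ⟨i, j, hij⟩ := hcov (p a) (hpS a)
    refine ⟨(0, j), m4 a ⟨p a, hpB a, ⟨?_, ?_⟩, hij.2⟩, rfl⟩
    · rw [ha]; simp
    · rw [ha]; simp only [Fin.val_zero, Nat.cast_zero]; linarith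
  · obtain ⟨i, j, hij⟩ := hcov (p b) (hpS b)
    refine ⟨(Fin.last n, j), m4 b ⟨p b, hpB b, ⟨?_, ?_⟩, hij.2⟩, rfl⟩
    · rw [hb]; simp only [Fin.val_last]; linarith
    · rw [hb]; simp only [Fin.val_last]; linarith
  · obtain ⟨i, j, hij⟩ := hcov (p c) (hpS c)
    refine ⟨(i, 0), m4 c ⟨p c, hpB c, hij.1, ?_, ?_⟩, rfl⟩
    · rw [hc]; simp
    · rw [hc]; simp only [Fin.val_zero, Nat.cast_zero]; linarith
  · obtain ⟨i, j, hij⟩ := hcov (p d) (hpS d)
    refine ⟨(i, Fin.last n), m4 d ⟨p d, hpB d, hij.1, ?_, ?_⟩, rfl⟩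
    · rw [hd]; simp only [Fin.val_last]; linarith
    · rw [hd]; simp only [Fin.val_last]; linarith

theorem con_image {V U : Type} {G : SimpleGraph V} {T : SimpleGraph U} (f : V → U)
    (hf : ∀ x y, G.Adj x y → T.Adj (f x) (f y)) {X : Set V} (hX : Con G X) :
    Con T (f '' X) := by
  refine ⟨hX.1.image f, fun C hC hne hneq => ?_⟩
  obtain ⟨x, hx, y, hy, hyC, hxy⟩ := hX.2 {x | x ∈ X ∧ f x ∈ C} (fun x hx => hx.1) (by
    obtain ⟨c, hc⟩ := hne
    obtain ⟨x, hx, rfl⟩ := hC hc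
    exact ⟨x, hx, hc⟩) (by
    intro e
    refine hneq (Set.Subset.antisymm hC ?_)
    rintro _ ⟨x, hx, rfl⟩
    rw [← e] at hx
    exact hx.2)
  exact ⟨f x, hx.2, f y, ⟨y, hy, rfl⟩, fun h => hyC ⟨hy, h⟩, hf x y hxy⟩

/-- the general form of the last step -/
theorem plug {W U : Type} {H H₀ : SimpleGraph W} {T : SimpleGraph U} {n : ℕ} {a b c d : W}
    (f : Fin (n + 1) × Fin (n + 1) → U) (hf : Function.Injective f)
    (hadj : ∀ x y, (grid (n + 1)).Adj x y → T.Adj (f x) (f y)) (p q : U) (hpq : p ≠ q)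
    (hp : ∀ x, f x ≠ p) (hq : ∀ x, f x ≠ q)
    (hp0 : ∀ x : Fin (n + 1) × Fin (n + 1), x.1.val = 0 ∨ x.1.val = n → T.Adj p (f x))
    (hq0 : ∀ x : Fin (n + 1) × Fin (n + 1), x.2.val = 0 ∨ x.2.val = n → T.Adj q (f x))
    (μ : W → Set (Fin (n + 1) × Fin (n + 1)))
    (m1 : ∀ v, ((grid (n + 1)).induce (μ v)).Connected)
    (m2 : ∀ v w, v ≠ w → Disjoint (μ v) (μ w))
    (m3 : ∀ v w, H₀.Adj v w → ∃ x ∈ μ v, ∃ y ∈ μ w, (grid (n + 1)).Adj x y)
    (ha : ∃ x ∈ μ a, x.1.val = 0) (hb : ∃ x ∈ μ b, x.1.val = n)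
    (hc : ∃ x ∈ μ c, x.2.val = 0) (hd : ∃ x ∈ μ d, x.2.val = n)
    (hH : ∀ u v, H.Adj u v → H₀.Adj u v ∨ s(u, v) = s(a, b) ∨ s(u, v) = s(c, d)) :
    IsMinor H T := by
  classical
  obtain ⟨xa, hxa, hxa0⟩ := ha
  obtain ⟨xb, hxb, hxb0⟩ := hb
  obtain ⟨xc, hxc, hxc0⟩ := hc
  obtain ⟨xd, hxd, hxd0⟩ := hd
  have hsub : ∀ v, f '' μ v ⊆ f '' μ v ∪ {x | x = p ∧ v = a} ∪ {x | x = q ∧ v = c} :=
    fun v x hx => Or.inl (Or.inl hx)
  refine ⟨fun v => f '' μ v ∪ {x | x = p ∧ v = a} ∪ {x | x = q ∧ v = c}, ?_, ?_, ?_⟩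
  · intro v
    rw [con_iff]
    show Con T (f '' μ v ∪ {x | x = p ∧ v = a} ∪ {x | x = q ∧ v = c})
    have h0 : Con T (f '' μ v) := con_image f hadj (con_iff.1 (m1 v))
    have h1 : Con T (f '' μ v ∪ {x | x = p ∧ v = a}) := by
      by_cases hv : v = a
      · have e : {x | x = p ∧ v = a} = {p} := by
          ext x; simp [hv]
        rw [e]
        subst hv
        exact h0.union (con_singleton T p) ⟨f xa, ⟨xa, hxa, rfl⟩, p, rfl, (hp0 xa (Or.inl hxa0)).symm⟩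
      · have e : {x | x = p ∧ v = a} = (∅ : Set U) := by
          ext x; simp [hv]
        rw [e, Set.union_empty]
        exact h0
    by_cases hv : v = c
    · have e : {x | x = q ∧ v = c} = {q} := by
        ext x; simp [hv]
      rw [e]
      subst hv
      exact h1.union (con_singleton T q)
        ⟨f xc, Or.inl ⟨xc, hxc, rfl⟩, q, rfl, (hq0 xc (Or.inl hxc0)).symm⟩
    · have e : {x | x = q ∧ v = c} = (∅ : Set U) := by
        ext x; simp [hv]
      rw [e, Set.union_empty]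
      exact h1
  · intro v w hvw
    rw [Set.disjoint_left]
    rintro x ((⟨y, hy, rfl⟩ | ⟨rfl, hv⟩) | ⟨rfl, hv⟩) ((⟨y', hy', h⟩ | ⟨h, hw⟩) | ⟨h, hw⟩)
    · rw [hf h] at hy'
      exact Set.disjoint_left.1 (m2 v w hvw) hy hy'
    · exact hp _ h
    · exact hq _ h
    · exact hp _ h
    · exact hvw (hv.trans hw.symm)
    · exact hpq h
    · exact hq _ h
    · exact hpq h.symm
    · exact hvw (hv.trans hw.symm)
  · intro u v huv
    rcases hH u v huv with h | h | h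
    · obtain ⟨x, hx, y, hy, hxy⟩ := m3 u v h
      exact ⟨f x, hsub u ⟨x, hx, rfl⟩, f y, hsub v ⟨y, hy, rfl⟩, hadj x y hxy⟩
    · rw [Sym2.eq_iff] at h
      rcases h with ⟨rfl, rfl⟩ | ⟨rfl, rfl⟩
      · exact ⟨p, Or.inl (Or.inr ⟨rfl, rfl⟩), f xb, hsub _ ⟨xb, hxb, rfl⟩, hp0 xb (Or.inr hxb0)⟩
      · exact ⟨f xb, hsub _ ⟨xb, hxb, rfl⟩, p, Or.inl (Or.inr ⟨rfl, rfl⟩),
          (hp0 xb (Or.inr hxb0)).symm⟩
    · rw [Sym2.eq_iff] at h
      rcases h with ⟨rfl, rfl⟩ | ⟨rfl, rfl⟩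
      · exact ⟨q, Or.inr ⟨rfl, rfl⟩, f xd, hsub _ ⟨xd, hxd, rfl⟩, hq0 xd (Or.inr hxd0)⟩
      · exact ⟨f xd, hsub _ ⟨xd, hxd, rfl⟩, q, Or.inr ⟨rfl, rfl⟩, (hq0 xd (Or.inr hxd0)).symm⟩

/-- [UNIV] A finite graph drawn with one crossing is a minor of `TX r` for some `r`. -/
theorem univ {W : Type} [Finite W] (H : SimpleGraph W) (h : OneCross H) :
    ∃ r : ℕ, 2 ≤ r ∧ IsMinor H (TX r) := by
  obtain ⟨H₀, a, b, c, d, hs, hH⟩ := h
  obtain ⟨n, hn, μ, m1, m2, m3, ha, hb, hc, hd⟩ := sq_model W H₀ a b c d hs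
  refine ⟨n + 1, by omega, ?_⟩
  refine plug (H₀ := H₀) (T := TX (n + 1)) (n := n) (a := a) (b := b) (c := c) (d := d) Sum.inr
    Sum.inr_injective ?_ (Sum.inl 0) (Sum.inl 1) ?_ ?_ ?_ ?_ ?_ μ m1 m2 m3 ha hb hc hd hH
  · intro x y hxy
    rw [TX, SimpleGraph.fromRel_adj]
    exact ⟨fun e => hxy.ne (Sum.inr_injective e), Or.inl (Or.inr (Or.inr ⟨x, y, hxy, rfl, rfl⟩))⟩
  · intro e
    exact absurd (Sum.inl_injective e) (by decide)
  · intro x e
    cases e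
  · intro x e
    cases e
  · intro x hx
    rw [TX, SimpleGraph.fromRel_adj]
    exact ⟨Sum.inl_ne_inr, Or.inl (Or.inl ⟨x, hx.imp_right fun h => by omega, rfl, rfl⟩)⟩
  · intro x hx
    rw [TX, SimpleGraph.fromRel_adj]
    exact ⟨Sum.inl_ne_inr,
      Or.inl (Or.inr (Or.inl ⟨x, hx.imp_right fun h => by omega, rfl, rfl⟩))⟩

/-- [UNIV'] no minor `H` drawn with one crossing: no minor `TX r` for some `r` -/
theorem univ' {W : Type} [Finite W] (H : SimpleGraph W) (h : OneCross H) :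
    ∃ r : ℕ, 2 ≤ r ∧ ∀ (V : Type) (G : SimpleGraph V), ¬ IsMinor H G → ¬ IsMinor (TX r) G := by
  obtain ⟨r, hr, hm⟩ := univ H h
  exact ⟨r, hr, fun V G hG hT => hG (Vale.Agent.P235.H56.minor_trans hm hT)⟩

end Vale.Agent.P235.XC.H218
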